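import Mathlib
import Crest.Agent.X262.Brg.Jac

-- ▼ part X262/Tr89/Val
section

/-!
# Row 262, road B (helper89): valuations with a generic direction

`TR v φ P s t`: the valuation `v` of `K` is centred at the prime `P` of `A` (through `φ`), the
elements `s i` have order at least that of `t`, and the residues of `s i / t` satisfy no
homogeneous relation over `A ⧸ P`.  If `s` generates `P` locally (`Gen`), then `v` is the order
along `P`: it is unique, `t` is a uniformiser, the residue field is generated by `A ⧸ P` and the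
`s i / t`.  No regularity and no noetherian hypothesis is needed.
-/

set_option autoImplicit false

noncomputable section

namespace Crest.Agent.X262.Tr89

open MvPolynomial WithZero

variable {A K ι : Type*} [CommRing A] [Field K]

/-- `φ x` has order at least `e` along `s`, locally at `P`. -/
def Ord (φ : A →+* K) (P : Ideal A) (s : ι → A) (x : A) (e : ℕ) : Prop :=
  ∃ g, g ∉ P ∧ ∃ z ∈ Ideal.span (Set.range s) ^ e, φ g * φ x = φ z

/-- `s` generates `P` locally at `P`, modulo the kernel of `φ`. -/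
def Gen (φ : A →+* K) (P : Ideal A) (s : ι → A) : Prop := ∀ x ∈ P, Ord φ P s x 1

variable {φ : A →+* K} {P : Ideal A} {s : ι → A} {x y : A} {e : ℕ} {t : K}

theorem Ord.zero (hP : P.IsPrime) (x : A) : Ord φ P s x 0 :=
  ⟨1, (Ideal.ne_top_iff_one P).1 hP.ne_top, x, by simp, by simp⟩

theorem Ord.mono {e' : ℕ} (h : Ord φ P s x e) (he : e' ≤ e) : Ord φ P s x e' := by
  obtain ⟨g, hg, z, hz, h⟩ := h
  exact ⟨g, hg, z, Ideal.pow_le_pow_right he hz, h⟩

theorem Ord.of_mem (hP : P.IsPrime) (h : x ∈ Ideal.span (Set.range s) ^ e) : Ord φ P s x e :=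
  ⟨1, (Ideal.ne_top_iff_one P).1 hP.ne_top, x, h, by simp⟩

theorem Ord.add (hP : P.IsPrime) (h : Ord φ P s x e) (h' : Ord φ P s y e) :
    Ord φ P s (x + y) e := by
  obtain ⟨g, hg, z, hz, h⟩ := h
  obtain ⟨g', hg', z', hz', h'⟩ := h'
  refine ⟨g * g', fun h0 => (hP.mem_or_mem h0).elim hg hg', g' * z + g * z',
    add_mem (Ideal.mul_mem_left _ _ hz) (Ideal.mul_mem_left _ _ hz'), ?_⟩
  simp only [map_mul, map_add]
  linear_combination φ g' * h + φ g * h'

theorem Ord.mul (hP : P.IsPrime) {e' : ℕ} (h : Ord φ P s x e) (h' : Ord φ P s y e') :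
    Ord φ P s (x * y) (e + e') := by
  obtain ⟨g, hg, z, hz, h⟩ := h
  obtain ⟨g', hg', z', hz', h'⟩ := h'
  refine ⟨g * g', fun h0 => (hP.mem_or_mem h0).elim hg hg', z * z', ?_, ?_⟩
  · rw [pow_add]; exact Ideal.mul_mem_mul hz hz'
  · simp only [map_mul]
    rw [← h, ← h']; ring

theorem Ord.sum (hP : P.IsPrime) {β : Type*} (T : Finset β) {f : β → A}
    (h : ∀ b ∈ T, Ord φ P s (f b) e) : Ord φ P s (∑ b ∈ T, f b) e :=
  Finset.sum_induction f (fun x => Ord φ P s x e) (fun _ _ => Ord.add hP)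
    (Ord.of_mem hP (zero_mem _)) h

theorem Ord.of_mul (hP : P.IsPrime) {g : A} (hg : g ∉ P) (h : φ g * φ x = φ y)
    (hy : Ord φ P s y e) : Ord φ P s x e := by
  obtain ⟨g', hg', z, hz, h'⟩ := hy
  exact ⟨g' * g, fun h0 => (hP.mem_or_mem h0).elim hg' hg, z, hz, by
    rw [map_mul, mul_assoc, h, h']⟩

/-- a form of degree `e` with coefficients in `P` has order `e + 1` -/
theorem Gen.ord_eval (hP : P.IsPrime) (hg : Gen φ P s) {G : MvPolynomial ι A}
    (hG : G.IsHomogeneous e) (h : ∀ m, coeff m G ∈ P) : Ord φ P s (eval s G) (e + 1) := by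
  rw [eval_eq]
  refine Ord.sum hP _ fun m hm => ?_
  rw [add_comm e 1]
  refine (hg _ (h m)).mul hP (Ord.of_mem hP ?_)
  rw [Ideal.mem_span_pow_iff_exists_isHomogeneous]
  refine ⟨monomial m 1, isHomogeneous_monomial _ ?_, by simp [eval_monomial, Finsupp.prod]⟩
  have := hG (mem_support_iff.1 hm)
  rwa [Finsupp.degree_eq_weight_one]

theorem eval₂_div {G : MvPolynomial ι A} (hG : G.IsHomogeneous e) (ht : t ≠ 0) :
    φ (eval s G) = t ^ e * eval₂ φ (fun i => φ (s i) / t) G := by
  rw [eval_eq, eval₂_eq, map_sum, Finset.mul_sum]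
  refine Finset.sum_congr rfl fun m hm => ?_
  have h1 : ∑ i ∈ m.support, m i = e := by
    have := hG (mem_support_iff.1 hm)
    rw [← this]
    simp [Finsupp.weight_apply, Finsupp.sum]
  simp only [map_mul, map_prod, map_pow, div_pow, Finset.prod_div_distrib,
    Finset.prod_pow_eq_pow_sum, h1]
  field_simp

variable {Γ : Type*} [LinearOrderedCommGroupWithZero Γ]

/-- `v` is centred at `P` and the direction `s / t` is generic. -/
structure TR (v : Valuation K Γ) (φ : A →+* K) (P : Ideal A) (s : ι → A) (t : K) : Prop where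
  le : ∀ x, v (φ x) ≤ 1
  lt : ∀ x, v (φ x) < 1 ↔ x ∈ P
  ne : t ≠ 0
  tlt : v t < 1
  sle : ∀ i, v (φ (s i)) ≤ v t
  ind : ∀ (e : ℕ) (G : MvPolynomial ι A), G.IsHomogeneous e →
    v (eval₂ φ (fun i => φ (s i) / t) G) < 1 → ∀ m, coeff m G ∈ P

namespace TR

variable {v : Valuation K Γ}

theorem eq_one (h : TR v φ P s t) (hx : x ∉ P) : v (φ x) = 1 :=
  (h.le x).antisymm (not_lt.1 fun h0 => hx ((h.lt x).1 h0))

theorem prime (h : TR v φ P s t) : P.IsPrime := by
  refine ⟨fun h0 => ?_, fun {a b} hab => ?_⟩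
  · have := (h.lt 1).2 (h0 ▸ Submodule.mem_top)
    simp at this
  · by_contra h0
    push Not at h0
    have := (h.lt _).2 hab
    rw [map_mul, map_mul, h.eq_one h0.1, h.eq_one h0.2] at this
    simp at this

theorem pos (h : TR v φ P s t) : 0 < v t := by
  rw [zero_lt_iff]; simpa using h.ne

theorem div_le (h : TR v φ P s t) (i : ι) : v (φ (s i) / t) ≤ 1 := by
  rw [map_div₀, div_le_one₀ h.pos]; exact h.sle i

theorem eval₂_le (h : TR v φ P s t) (G : MvPolynomial ι A) :
    v (eval₂ φ (fun i => φ (s i) / t) G) ≤ 1 := by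
  induction G using MvPolynomial.induction_on with
  | C a => simpa using h.le a
  | add p q hp hq => rw [eval₂_add]; exact (v.map_add _ _).trans (max_le hp hq)
  | mul_X p i hp => rw [eval₂_mul, eval₂_X, map_mul]; exact mul_le_one' hp (h.div_le i)

theorem exists_form (h : TR v φ P s t) (hx : Ord φ P s x e) : ∃ g, g ∉ P ∧
    ∃ G : MvPolynomial ι A, G.IsHomogeneous e ∧ φ g * φ x = φ (eval s G) ∧
      φ g * φ x = t ^ e * eval₂ φ (fun i => φ (s i) / t) G := by
  obtain ⟨g, hg, z, hz, h1⟩ := hx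
  obtain ⟨G, hG, rfl⟩ := (Ideal.mem_span_pow_iff_exists_isHomogeneous _ _).1 hz
  exact ⟨g, hg, G, hG, h1, h1.trans (eval₂_div hG h.ne)⟩

theorem le_pow (h : TR v φ P s t) (hx : Ord φ P s x e) : v (φ x) ≤ v t ^ e := by
  obtain ⟨g, hg, G, -, -, h1⟩ := h.exists_form hx
  have h2 := congrArg v h1
  rw [map_mul, h.eq_one hg, one_mul, map_mul, map_pow] at h2
  rw [h2]
  exact mul_le_of_le_one_right' (h.eval₂_le G)

/-- the initial form of an element of order exactly `e` -/
theorem exists_init (h : TR v φ P s t) (hg : Gen φ P s) (hx : Ord φ P s x e)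
    (hx' : ¬ Ord φ P s x (e + 1)) : ∃ g, g ∉ P ∧ ∃ G : MvPolynomial ι A, G.IsHomogeneous e ∧
      v (eval₂ φ (fun i => φ (s i) / t) G) = 1 ∧
      φ g * φ x = t ^ e * eval₂ φ (fun i => φ (s i) / t) G := by
  obtain ⟨g, hg', G, hG, h1, h2⟩ := h.exists_form hx
  refine ⟨g, hg', G, hG, (h.eval₂_le G).antisymm (not_lt.1 fun h0 => hx' ?_), h2⟩
  exact Ord.of_mul h.prime hg' h1 (hg.ord_eval h.prime hG (h.ind e G hG h0))

theorem eq_pow (h : TR v φ P s t) (hg : Gen φ P s) (hx : Ord φ P s x e)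
    (hx' : ¬ Ord φ P s x (e + 1)) : v (φ x) = v t ^ e := by
  obtain ⟨g, hg', G, -, h1, h2⟩ := h.exists_init hg hx hx'
  have h3 := congrArg v h2
  rwa [map_mul, h.eq_one hg', one_mul, map_mul, map_pow, h1, mul_one] at h3

variable [MulArchimedean Γ]

theorem exists_ord (h : TR v φ P s t) (hx : φ x ≠ 0) :
    ∃ e, Ord φ P s x e ∧ ¬ Ord φ P s x (e + 1) := by
  classical
  have h0 : v (φ x) ≠ 0 := by simpa using hx
  obtain ⟨n, hn⟩ := exists_pow_lt₀ h.tlt (Units.mk0 _ h0)
  have h1 : ∃ e, ¬ Ord φ P s x (e + 1) :=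
    ⟨n, fun h2 => (hn.trans_le (h.le_pow (h2.mono (Nat.le_succ n)))).false⟩
  refine ⟨Nat.find h1, ?_, Nat.find_spec h1⟩
  rcases h2 : Nat.find h1 with _ | m
  · exact Ord.zero h.prime x
  · exact not_not.1 (Nat.find_min h1 (by omega))

theorem exists_pow (h : TR v φ P s t) (hg : Gen φ P s) (hx : φ x ≠ 0) :
    ∃ e : ℕ, v (φ x) = v t ^ e := by
  obtain ⟨e, h1, h2⟩ := h.exists_ord hx
  exact ⟨e, h.eq_pow hg h1 h2⟩

/-- the order relation is determined by `φ, P, s` -/
theorem le_iff {Γ' : Type*} [LinearOrderedCommGroupWithZero Γ'] {v' : Valuation K Γ'} {t' : K}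
    (h : TR v φ P s t) (h' : TR v' φ P s t') (hg : Gen φ P s) (x y : A) :
    v (φ x) ≤ v (φ y) ↔ v' (φ x) ≤ v' (φ y) := by
  by_cases hx : φ x = 0
  · simp [hx]
  by_cases hy : φ y = 0
  · simp [hx, hy]
  obtain ⟨a, h1, h2⟩ := h.exists_ord hx
  obtain ⟨b, h3, h4⟩ := h.exists_ord hy
  rw [h.eq_pow hg h1 h2, h.eq_pow hg h3 h4, h'.eq_pow hg h1 h2, h'.eq_pow hg h3 h4,
    pow_le_pow_iff_right_of_lt_one₀ h.pos h.tlt, pow_le_pow_iff_right_of_lt_one₀ h'.pos h'.tlt]

end TR

/-- `K` is the field of fractions of the image of `φ` -/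
def Frc (φ : A →+* K) : Prop := ∀ z : K, ∃ a b, φ b ≠ 0 ∧ z = φ a / φ b

namespace TR

variable {v : Valuation K Γ} [MulArchimedean Γ]

/-- uniqueness of the valuation -/
theorem le_one_iff {Γ' : Type*} [LinearOrderedCommGroupWithZero Γ'] {v' : Valuation K Γ'} {t' : K}
    (h : TR v φ P s t) (h' : TR v' φ P s t') (hg : Gen φ P s) (hf : Frc φ) (z : K) :
    v z ≤ 1 ↔ v' z ≤ 1 := by
  obtain ⟨a, b, hb, rfl⟩ := hf z
  rw [map_div₀, map_div₀, div_le_one₀ (by rw [zero_lt_iff]; simpa using hb),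
    div_le_one₀ (by rw [zero_lt_iff]; simpa using hb)]
  exact h.le_iff h' hg a b

theorem exists_zpow (h : TR v φ P s t) (hg : Gen φ P s) (hf : Frc φ) {z : K} (hz : z ≠ 0) :
    ∃ e : ℤ, v z = v t ^ e := by
  obtain ⟨a, b, hb, rfl⟩ := hf z
  obtain ⟨e, he⟩ := h.exists_pow hg (div_ne_zero_iff.1 hz).1
  obtain ⟨e', he'⟩ := h.exists_pow hg hb
  exact ⟨e - e', by rw [map_div₀, he, he', zpow_sub₀ h.pos.ne', zpow_natCast, zpow_natCast]⟩

/-- units are quotients of two forms of the same degree -/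
theorem exists_quot (h : TR v φ P s t) (hg : Gen φ P s) (hf : Frc φ) {z : K} (hz : v z = 1) :
    ∃ (e : ℕ) (G H : MvPolynomial ι A), G.IsHomogeneous e ∧ H.IsHomogeneous e ∧
      v (eval₂ φ (fun i => φ (s i) / t) G) = 1 ∧ v (eval₂ φ (fun i => φ (s i) / t) H) = 1 ∧
      z = eval₂ φ (fun i => φ (s i) / t) G / eval₂ φ (fun i => φ (s i) / t) H := by
  obtain ⟨a, b, hb, rfl⟩ := hf z
  have ha : φ a ≠ 0 := fun h0 => by simp [h0] at hz
  obtain ⟨e, h1, h2⟩ := h.exists_ord ha
  obtain ⟨e', h3, h4⟩ := h.exists_ord hb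
  rw [map_div₀, h.eq_pow hg h1 h2, h.eq_pow hg h3 h4, div_eq_one_iff_eq (pow_ne_zero _ h.pos.ne')]
    at hz
  obtain rfl : e = e' := pow_right_injective₀ h.pos h.tlt.ne hz
  obtain ⟨g, hg1, G, hG, h5, h6⟩ := h.exists_init hg h1 h2
  obtain ⟨g', hg2, H, hH, h7, h8⟩ := h.exists_init hg h3 h4
  refine ⟨e, C g' * G, C g * H, by simpa using (isHomogeneous_C _ g').mul hG,
    by simpa using (isHomogeneous_C _ g).mul hH, ?_, ?_, ?_⟩
  · rw [eval₂_mul, eval₂_C, map_mul, h.eq_one hg2, h5, one_mul]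
  · rw [eval₂_mul, eval₂_C, map_mul, h.eq_one hg1, h7, one_mul]
  · have h9 : φ g ≠ 0 := fun h0 => by simpa [h0] using h.eq_one hg1
    have h10 : eval₂ φ (fun i => φ (s i) / t) H ≠ 0 := fun h0 => by simp [h0] at h7
    rw [eval₂_mul, eval₂_C, eval₂_mul, eval₂_C, div_eq_div_iff hb (mul_ne_zero h9 h10)]
    refine mul_left_cancel₀ (pow_ne_zero e h.ne) ?_
    linear_combination (-(φ g * φ a)) * h8 + φ g' * φ b * h6

/-- `t` is a uniformiser -/
theorem unif {v : Valuation K ℤᵐ⁰} (h : TR v φ P s t) (hg : Gen φ P s) (hf : Frc φ)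
    (hu : ∃ z, v z = exp (-1)) : v t = exp (-1) := by
  obtain ⟨z, hz⟩ := hu
  obtain ⟨e, he⟩ := h.exists_zpow hg hf (z := z) fun h0 => by
    rw [h0, map_zero] at hz; exact exp_ne_zero hz.symm
  have h1 : v t = exp (log (v t)) := (exp_log h.pos.ne').symm
  have h2 : log (v t) < 0 := by
    have := h.tlt
    rwa [h1, ← exp_zero, exp_lt_exp] at this
  rw [hz, h1, ← exp_zsmul, exp_inj, smul_eq_mul] at he
  rw [h1, exp_inj]
  have h3 : log (v t) ∣ 1 := ⟨-e, by linarith⟩
  rcases Int.isUnit_iff.1 (isUnit_of_dvd_one h3) with h4 | h4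
  · omega
  · exact h4

end TR

end Crest.Agent.X262.Tr89
end
end

-- ▼ part X262/Tr89/Jac
section

/-!
# Row 262, road B (helper89): equations with independent differentials at a generic point

`η` is a point of affine space with coordinates generating the field `κ`.
* `grd η q`      : the gradient of `q` at `η`;
* `card_add_le`  : independent gradients bound the dimension of `κ`;
* `span_of_dim`  : in the case of equality they span the gradients of all equations of `η`;
* `gen_of_span`  : and then the equations generate the ideal of `η` locally.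
-/

set_option autoImplicit false
set_option linter.unusedSectionVars false

noncomputable section

namespace Crest.Agent.X262.Tr89

open MvPolynomial IsLocalRing

variable {k κ σ ι : Type} [Field k] [Field κ] [Algebra k κ] [Fintype σ] [Fintype ι]

/-- the gradient at a point -/
def grd {B : Type} [CommRing B] [Algebra k B] (η : σ → B) (q : MvPolynomial σ k) : σ → B :=
  fun i => aeval η (pderiv i q)

theorem der_aeval {B M : Type*} [CommRing B] [Algebra k B] [AddCommGroup M] [Module B M]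
    [Module k M] (D : Derivation k B M) (η : σ → B) (q : MvPolynomial σ k) :
    D (aeval η q) = ∑ i, aeval η (pderiv i q) • D (η i) := by
  classical
  induction q using MvPolynomial.induction_on with
  | C a => simp
  | add p q hp hq => simp [hp, hq, add_smul, Finset.sum_add_distrib]
  | mul_X p i hp =>
    simp only [map_mul, aeval_X, Derivation.leibniz, hp, smul_eq_mul, map_add, pderiv_X,
      add_smul, Finset.sum_add_distrib, Finset.smul_sum]
    congr 1
    · rw [Finset.sum_eq_single i]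
      · simp
      · intro j _ hj
        simp [hj.symm]
      · simp
    · refine Finset.sum_congr rfl fun j _ => ?_
      rw [mul_smul]

variable {η : σ → κ} {s : ι → MvPolynomial σ k}

/-- the differentials of the coordinates -/
def dl (k : Type) [Field k] [Algebra k κ] (η : σ → κ) : (σ → κ) →ₗ[κ] Ω[κ⁄k] :=
  Fintype.linearCombination κ fun i => KaehlerDifferential.D k κ (η i)

theorem dl_grd (q : MvPolynomial σ k) :
    dl k η (grd η q) = KaehlerDifferential.D k κ (aeval η q) := by
  rw [der_aeval, dl, Fintype.linearCombination_apply]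
  rfl

theorem dl_surj (hη : IntermediateField.adjoin k (Set.range η) = ⊤) :
    LinearMap.range (dl k η) = ⊤ := by
  rw [eq_top_iff, ← KaehlerDifferential.span_range_derivation, Submodule.span_le]
  rintro _ ⟨x, rfl⟩
  obtain ⟨a, b, rfl⟩ := (IntermediateField.mem_adjoin_range_iff k η x).1 (hη ▸ trivial)
  rw [div_eq_mul_inv, Derivation.leibniz, Derivation.leibniz_inv, ← dl_grd, ← dl_grd]
  exact add_mem (Submodule.smul_mem _ _ (Submodule.smul_mem _ _ ⟨_, rfl⟩))
    (Submodule.smul_mem _ _ ⟨_, rfl⟩)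

theorem rank_ker (hη : IntermediateField.adjoin k (Set.range η) = ⊤) :
    Module.finrank κ Ω[κ⁄k] + Module.finrank κ (LinearMap.ker (dl k η)) = Fintype.card σ := by
  have h := (dl k η).finrank_range_add_finrank_ker
  rwa [dl_surj hη, finrank_top, Module.finrank_fintype_fun_eq_card] at h

theorem span_le_ker (hs : ∀ a, aeval η (s a) = 0) :
    Submodule.span κ (Set.range fun a => grd η (s a)) ≤ LinearMap.ker (dl k η) := by
  rw [Submodule.span_le]
  rintro _ ⟨a, rfl⟩
  change dl k η _ = 0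
  rw [dl_grd, hs, map_zero]



theorem span_of_dim (hη : IntermediateField.adjoin k (Set.range η) = ⊤)
    (hs : ∀ a, aeval η (s a) = 0) (hli : LinearIndependent κ fun a => grd η (s a))
    (hd : Fintype.card σ ≤ Module.finrank κ Ω[κ⁄k] + Fintype.card ι) {q : MvPolynomial σ k}
    (hq : aeval η q = 0) : grd η q ∈ Submodule.span κ (Set.range fun a => grd η (s a)) := by
  have h1 := rank_ker hη
  rw [Submodule.eq_of_le_of_finrank_le (span_le_ker hs) (by rw [finrank_span_eq_card hli]; omega)]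
  change dl k η _ = 0
  rw [dl_grd, hq, map_zero]

theorem exists_section {O : Type} [CommRing O] [Algebra k O] [Algebra.FormallySmooth k κ]
    (ρ : O →ₐ[k] κ) (hsur : Function.Surjective ρ) (f : MvPolynomial σ k →ₐ[k] O)
    (hρ : ∀ x, ρ (f x) = aeval η x) :
    ∃ (ψ : κ →ₐ[k] O ⧸ RingHom.ker ρ ^ 2) (δ : σ → O ⧸ RingHom.ker ρ ^ 2),
      ∀ x : MvPolynomial σ k, aeval η x = 0 →
        Ideal.Quotient.mk _ (f x) = ∑ i, ψ (grd η x i) * δ i := by
  let π := Ideal.Quotient.mkₐ k (RingHom.ker ρ ^ 2)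
  let ρ' : (O ⧸ RingHom.ker ρ ^ 2) →ₐ[k] κ := Ideal.Quotient.liftₐ _ ρ fun a ha =>
    Ideal.pow_le_self two_ne_zero ha
  have hρ' : ∀ x, ρ' (π x) = ρ x := fun x => rfl
  have hsur' : Function.Surjective ρ' := fun x => by
    obtain ⟨y, rfl⟩ := hsur x
    exact ⟨π y, rfl⟩
  have hI : RingHom.ker ρ' ^ 2 = ⊥ := by
    have h1 : RingHom.ker ρ' ≤ (RingHom.ker ρ).map (Ideal.Quotient.mk _) := fun x hx => by
      obtain ⟨y, rfl⟩ := Ideal.Quotient.mk_surjective x
      exact Ideal.mem_map_of_mem _ hx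
    rw [eq_bot_iff]
    refine (Ideal.pow_right_mono h1 2).trans ?_
    rw [← Ideal.map_pow]
    exact (Ideal.map_quotient_self _).le
  obtain ⟨ψ, hψ⟩ : ∃ ψ : κ →ₐ[k] O ⧸ RingHom.ker ρ ^ 2, ∀ x, ρ' (ψ x) = x :=
    ⟨_, Algebra.FormallySmooth.liftOfSurjective_apply (AlgHom.id k κ) ρ' hsur' ⟨2, hI⟩⟩
  refine ⟨ψ, fun i => π (f (X i)) - ψ (η i), fun x hx => ?_⟩
  have h1 := Brg.Jac.taylor (RingHom.ker ρ') (fun i => ψ (η i))
    (fun i => π (f (X i)) - ψ (η i)) (fun i => by
      rw [RingHom.mem_ker, map_sub, hψ, hρ', hρ, aeval_X, sub_self]) x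
  have h2 : ∀ y : MvPolynomial σ k, aeval (fun i => ψ (η i)) y = ψ (aeval η y) := fun y =>
    (comp_aeval_apply η ψ y).symm
  have h4 : aeval ((fun i => ψ (η i)) + fun i => π (f (X i)) - ψ (η i)) = π.comp f := by
    ext i
    simp
  rw [hI, Ideal.mem_bot, h4, h2, hx, map_zero, sub_zero, sub_eq_zero] at h1
  exact h1.trans (Finset.sum_congr rfl fun i _ => by rw [h2]; rfl)

theorem le_sup_sq {O : Type} [CommRing O] [Algebra k O] [Algebra.FormallySmooth k κ]
    (ρ : O →ₐ[k] κ) (hsur : Function.Surjective ρ) (f : MvPolynomial σ k →ₐ[k] O)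
    (hρ : ∀ x, ρ (f x) = aeval η x) (hs : ∀ a, aeval η (s a) = 0) {x : MvPolynomial σ k}
    (hx : aeval η x = 0) (h : grd η x ∈ Submodule.span κ (Set.range fun a => grd η (s a))) :
    f x ∈ (Ideal.span (Set.range s)).map f ⊔ RingHom.ker ρ ^ 2 := by
  obtain ⟨ψ, δ, key⟩ := exists_section ρ hsur f hρ
  obtain ⟨c, hc⟩ := (Submodule.mem_span_range_iff_exists_fun κ).1 h
  choose c' hc' using fun a => Ideal.Quotient.mk_surjective (ψ (c a))
  have h6 : Ideal.Quotient.mk (RingHom.ker ρ ^ 2) (f x) =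
      Ideal.Quotient.mk _ (∑ a, c' a * f (s a)) := by
    rw [key x hx, map_sum, ← hc]
    simp only [map_mul, key _ (hs _), Finset.sum_apply, Pi.smul_apply, smul_eq_mul, map_sum,
      Finset.sum_mul, Finset.mul_sum, hc']
    rw [Finset.sum_comm]
    exact Finset.sum_congr rfl fun a _ => Finset.sum_congr rfl fun i _ => mul_assoc _ _ _
  rw [← sub_add_cancel (f x) (∑ a, c' a * f (s a)), add_comm]
  exact Submodule.add_mem_sup (Ideal.sum_mem _ fun a _ => Ideal.mul_mem_left _ _
    (Ideal.mem_map_of_mem _ (Ideal.subset_span ⟨a, rfl⟩))) (Ideal.Quotient.eq.1 h6)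

/-- the equations generate the ideal of the point locally -/
theorem gen_of_span [CharZero k] (hη : IntermediateField.adjoin k (Set.range η) = ⊤)
    (hs : ∀ a, aeval η (s a) = 0)
    (hsp : ∀ q : MvPolynomial σ k, aeval η q = 0 →
      grd η q ∈ Submodule.span κ (Set.range fun a => grd η (s a)))
    {q : MvPolynomial σ k} (hq : aeval η q = 0) :
    ∃ g, aeval η g ≠ 0 ∧ g * q ∈ Ideal.span (Set.range s) := by
  obtain ⟨P, hP0⟩ : ∃ P : Ideal (MvPolynomial σ k), ∀ x, x ∈ P ↔ aeval η x = 0 :=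
    ⟨RingHom.ker (aeval η : MvPolynomial σ k →ₐ[k] κ), fun _ => Iff.rfl⟩
  have hP : P.IsPrime := by
    rw [show P = RingHom.ker (aeval η : MvPolynomial σ k →ₐ[k] κ) from Ideal.ext hP0]
    exact RingHom.ker_isPrime _
  have hu : ∀ y : P.primeCompl, IsUnit ((aeval η : MvPolynomial σ k →ₐ[k] κ) y) := fun y =>
    isUnit_iff_ne_zero.2 fun h => y.2 ((hP0 _).2 h)
  obtain ⟨ρ, hρ⟩ : ∃ ρ : Localization.AtPrime P →ₐ[k] κ,
      ∀ x, ρ (algebraMap (MvPolynomial σ k) _ x) = aeval η x :=
    ⟨IsLocalization.liftAlgHom hu, fun x => IsLocalization.lift_eq hu x⟩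
  have hsur : Function.Surjective ρ := fun x => by
    obtain ⟨a, b, rfl⟩ := (IntermediateField.mem_adjoin_range_iff k η x).1 (hη ▸ trivial)
    by_cases hb : aeval η b = 0
    · exact ⟨0, by simp [hb]⟩
    · have hb' : b ∈ P.primeCompl := fun h => hb ((hP0 _).1 h)
      refine ⟨IsLocalization.mk' _ a (⟨b, hb'⟩ : P.primeCompl), ?_⟩
      rw [eq_div_iff hb, ← hρ, ← hρ, ← map_mul]
      exact congrArg ρ (IsLocalization.mk'_spec _ a (⟨b, hb'⟩ : P.primeCompl))
  have hker : RingHom.ker ρ = maximalIdeal _ := IsLocalRing.ker_eq_maximalIdeal _ hsur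
  have : Algebra.EssFiniteType k κ := IntermediateField.fg_top_iff.1
    ⟨(Set.finite_range η).toFinset, by rw [Set.Finite.coe_toFinset, hη]⟩
  have h5 : maximalIdeal (Localization.AtPrime P) ≤
      (Ideal.span (Set.range s)).map (algebraMap (MvPolynomial σ k) (Localization.AtPrime P)) ⊔
        maximalIdeal (Localization.AtPrime P) • maximalIdeal (Localization.AtPrime P) := by
    conv_lhs => rw [← Localization.AtPrime.map_eq_maximalIdeal]
    rw [Ideal.map_le_iff_le_comap, smul_eq_mul, ← pow_two, ← hker]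
    exact fun x hx => le_sup_sq ρ hsur (IsScalarTower.toAlgHom k _ _) hρ hs ((hP0 x).1 hx)
      (hsp x ((hP0 x).1 hx))
  have h8 := Submodule.le_of_le_smul_of_le_jacobson_bot (IsNoetherian.noetherian _)
    (maximalIdeal_le_jacobson _) h5
  have h9 : algebraMap (MvPolynomial σ k) _ q ∈ maximalIdeal (Localization.AtPrime P) := by
    rw [← hker, RingHom.mem_ker, hρ, hq]
  obtain ⟨g, hg, h⟩ :=
    (IsLocalization.algebraMap_mem_map_algebraMap_iff P.primeCompl _ _ q).1 (h8 h9)
  exact ⟨g, fun h0 => hg ((hP0 g).2 h0), h⟩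

end Crest.Agent.X262.Tr89
end
end

-- ▼ part X262/Tr89/Ex

/-!
# Row 262, road B (helper89): existence of the valuation with a generic direction

* `TR.of_val`, `TR.comap` : change of the parameter, restriction to a subfield;
* `tr_poly`   : the valuation of an arc `A → L[X]` with a generic tangent vector;
* `exists_TR` : the order along the generic point of a smooth subvariety of affine space.
-/

set_option autoImplicit false
set_option linter.unusedSectionVars false

noncomputable section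

namespace Crest.Agent.X262.Tr89

open MvPolynomial WithZero IsDedekindDomain.HeightOneSpectrum

section Abs

variable {A K ι : Type*} [CommRing A] [Field K] {φ : A →+* K} {P : Ideal A} {s : ι → A}
  {x : A} {e : ℕ} {t t' : K} {Γ : Type*} [LinearOrderedCommGroupWithZero Γ] {v : Valuation K Γ}

theorem TR.of_val (h : TR v φ P s t) (ht : v t' = v t) : TR v φ P s t' := by
  have h0 : t' ≠ 0 := fun h1 => h.pos.ne' (by rw [← ht, h1, map_zero])
  refine ⟨h.le, h.lt, h0, ht ▸ h.tlt, fun i => ht ▸ h.sle i, fun e G hG h1 => h.ind e G hG ?_⟩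
  have h2 := congrArg v ((eval₂_div (φ := φ) (s := s) hG h0).symm.trans (eval₂_div hG h.ne))
  rw [map_mul, map_mul, map_pow, map_pow, ht] at h2
  rwa [← mul_left_cancel₀ (pow_ne_zero e h.pos.ne') h2]

theorem TR.comap {L : Type*} [Field L] {w : Valuation L Γ} (j : K →+* L)
    (h : TR w (j.comp φ) P s (j t)) : TR (w.comap j) φ P s t := by
  refine ⟨h.le, h.lt, fun h0 => h.ne (by rw [h0, map_zero]), h.tlt, h.sle,
    fun e G hG h1 => h.ind e G hG ?_⟩
  rw [Valuation.comap_apply, eval₂_comp_left] at h1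
  convert h1 using 3
  funext i
  simp

/-- an element of finite order is not killed -/
theorem TR.ne_zero {K' : Type*} [Field K'] {φ' : A →+* K'} (h : TR v φ P s t)
    (hi : Function.Injective φ') (hg : Gen φ' P s) (hx : Ord φ' P s x e)
    (hx' : ¬ Ord φ' P s x (e + 1)) : φ x ≠ 0 := by
  obtain ⟨g, hg', z, hz, h1⟩ := hx
  obtain ⟨G, hG, rfl⟩ := (Ideal.mem_span_pow_iff_exists_isHomogeneous _ _).1 hz
  intro h0
  refine hx' (Ord.of_mul h.prime hg' h1 (hg.ord_eval h.prime hG (h.ind e G hG ?_)))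
  have h2 : g * x = eval s G := hi (by rw [map_mul, h1])
  have h3 := eval₂_div (φ := φ) (s := s) hG h.ne
  rw [← h2, map_mul, h0, mul_zero, eq_comm, mul_eq_zero] at h3
  rw [h3.resolve_left (pow_ne_zero _ h.ne), map_zero]
  exact zero_lt_one

/-- Krull's intersection theorem -/
theorem exists_not_ord [IsNoetherianRing A] (hi : Function.Injective φ) (hP : P.IsPrime)
    (hs : ∀ i, s i ∈ P) (hx : x ≠ 0) : ∃ e, Ord φ P s x e ∧ ¬ Ord φ P s x (e + 1) := by
  classical
  have : IsDomain A := hi.isDomain φ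
  have h1 : ∃ e, ¬ Ord φ P s x (e + 1) := by
    by_contra h2
    push Not at h2
    have h3 : algebraMap A (Localization.AtPrime P) x ∈
        ⨅ n : ℕ, IsLocalRing.maximalIdeal (Localization.AtPrime P) ^ n := by
      refine Ideal.mem_iInf.2 fun n => Ideal.pow_le_pow_right (Nat.le_succ n) ?_
      obtain ⟨g, hg, z, hz, h4⟩ := h2 n
      rw [← Localization.AtPrime.map_eq_maximalIdeal, ← Ideal.map_pow,
        IsLocalization.algebraMap_mem_map_algebraMap_iff P.primeCompl]
      refine ⟨g, hg, ?_⟩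
      rw [show g * x = z from hi (by rw [map_mul, h4])]
      exact Ideal.pow_right_mono (Ideal.span_le.2 (by rintro _ ⟨i, rfl⟩; exact hs i)) _ hz
    rw [Ideal.iInf_pow_eq_bot_of_isLocalRing _ (IsLocalRing.maximalIdeal.isMaximal _).ne_top,
      Ideal.mem_bot] at h3
    exact hx (IsLocalization.injective _ P.primeCompl_le_nonZeroDivisors (h3.trans (map_zero _).symm))
  refine ⟨Nat.find h1, ?_, Nat.find_spec h1⟩
  rcases h2 : Nat.find h1 with _ | m
  · exact Ord.zero hP x
  · exact not_not.1 (Nat.find_min h1 (by omega))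

theorem TR.injective [IsNoetherianRing A] {K' : Type*} [Field K'] {φ' : A →+* K'}
    (h : TR v φ P s t) (hi : Function.Injective φ') (hg : Gen φ' P s) : Function.Injective φ := by
  rw [injective_iff_map_eq_zero]
  intro x hx
  by_contra h0
  obtain ⟨e, h1, h2⟩ := exists_not_ord hi h.prime
    (fun i => (h.lt _).1 ((h.sle i).trans_lt h.tlt)) h0
  exact h.ne_zero hi hg h1 h2 hx

/-- the valuation of an arc with a generic tangent vector -/
theorem tr_poly {L : Type*} [Field L] (ψ : A →+* Polynomial L) (c : ι → Polynomial L)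
    (hP : ∀ x, x ∈ P ↔ (ψ x).coeff 0 = 0) (hc : ∀ a, ψ (s a) = Polynomial.X * c a)
    (hi : ∀ (e : ℕ) (G : MvPolynomial ι A), G.IsHomogeneous e →
      eval₂ (Polynomial.constantCoeff.comp ψ) (fun a => (c a).coeff 0) G = 0 →
        ∀ m, coeff m G ∈ P) :
    TR ((Polynomial.idealX L).valuation (RatFunc L)) ((algebraMap _ (RatFunc L)).comp ψ) P s
      RatFunc.X := by
  have h1 : ∀ p : Polynomial L, (Polynomial.idealX L).valuation (RatFunc L)
      (algebraMap _ _ p) < 1 ↔ p.coeff 0 = 0 := fun p => by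
    rw [valuation_lt_one_iff_mem, Polynomial.idealX_span, Ideal.mem_span_singleton,
      Polynomial.X_dvd_iff]
  have h2 : ∀ a, ((algebraMap _ (RatFunc L)).comp ψ) (s a) / RatFunc.X =
      algebraMap _ (RatFunc L) (c a) := fun a => by
    rw [RingHom.comp_apply, hc, map_mul, RatFunc.algebraMap_X,
      mul_div_cancel_left₀ _ RatFunc.X_ne_zero]
  refine ⟨fun x => valuation_le_one _ _, fun x => (h1 _).trans (hP x).symm, RatFunc.X_ne_zero,
    ?_, fun a => ?_, fun e G hG h3 => hi e G hG ?_⟩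
  · rw [← RatFunc.algebraMap_X, h1, Polynomial.coeff_X_zero]
  · rw [RingHom.comp_apply, hc, map_mul, map_mul, RatFunc.algebraMap_X]
    exact mul_le_of_le_one_right' (valuation_le_one _ _)
  · simp only [h2] at h3
    have h4 := eval₂_comp_left (algebraMap _ (RatFunc L)) ψ c G
    rw [show (fun a => algebraMap _ (RatFunc L) (c a)) = algebraMap _ (RatFunc L) ∘ c from rfl,
      ← h4, h1] at h3
    have h5 := eval₂_comp_left (Polynomial.constantCoeff (R := L)) ψ c G
    rw [Polynomial.constantCoeff_apply, h3] at h5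
    exact h5.symm

end Abs

variable {k K κ σ ι : Type} [Field k] [Field K] [Field κ] [Algebra k K] [Algebra k κ] [Fintype σ]
  [Fintype ι]

/-- evaluation at a point -/
abbrev evH (k : Type) [Field k] [Algebra k K] (y : σ → K) : MvPolynomial σ k →+* K :=
  (aeval y : MvPolynomial σ k →ₐ[k] K)

/-- the ideal of a point -/
abbrev idl (k : Type) [Field k] [Algebra k K] (y : σ → K) : Ideal (MvPolynomial σ k) :=
  RingHom.ker (evH k y)

variable {y : σ → K} {η : σ → κ} {s : ι → MvPolynomial σ k}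

theorem frc_evH (hK : IntermediateField.adjoin k (Set.range y) = ⊤) : Frc (evH k y) := fun z => by
  obtain ⟨a, b, rfl⟩ := (IntermediateField.mem_adjoin_range_iff k y z).1 (hK ▸ trivial)
  by_cases hb : aeval y b = 0
  · exact ⟨0, 1, by simp, by simp [hb]⟩
  · exact ⟨a, b, hb, rfl⟩

theorem gen_evH [CharZero k] (hη : IntermediateField.adjoin k (Set.range η) = ⊤)
    (hs : ∀ a, aeval η (s a) = 0) (hli : LinearIndependent κ fun a => grd η (s a))
    (hd : Fintype.card σ ≤ Module.finrank κ Ω[κ⁄k] + Fintype.card ι)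
    (φ : MvPolynomial σ k →+* K) : Gen φ (idl k η) s := fun q hq => by
  obtain ⟨g, hg, h⟩ := gen_of_span hη hs (fun _ => span_of_dim hη hs hli hd) hq
  exact ⟨g, hg, g * q, by rwa [pow_one], (map_mul _ _ _).symm⟩

theorem exists_dual {f : ι → σ → κ} (hli : LinearIndependent κ f) [DecidableEq ι] :
    ∃ w : ι → σ → κ, ∀ a b, ∑ i, f a i * w b i = if a = b then 1 else 0 := by
  classical
  have h : ∀ b, ∃ w : σ → κ, ∀ a, ∑ i, f a i * w i = if a = b then 1 else 0 := fun b => by
    obtain ⟨g, hg⟩ := (hli.repr.exists_extend :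
      ∃ g : (σ → κ) →ₗ[κ] (ι →₀ κ), g.comp (Submodule.span κ (Set.range f)).subtype = hli.repr)
    refine ⟨fun i => g (Pi.single i 1) b, fun a => ?_⟩
    have h1 : g (f a) = Finsupp.single a 1 := by
      have h2 := LinearMap.congr_fun hg ⟨f a, Submodule.subset_span ⟨a, rfl⟩⟩
      exact h2.trans (hli.repr_eq_single a _ rfl)
    have h3 : f a = ∑ i, f a i • (Pi.single i 1 : σ → κ) := by
      funext j
      simp [Finset.sum_apply, Pi.single_apply]
    rw [← Finsupp.single_apply, ← h1]
    conv_rhs => rw [h3, map_sum, Finsupp.finsetSum_apply]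
    simp
  choose w hw using h
  exact ⟨w, fun a b => hw b a⟩

/-- the arc `η + X d` to first order -/
theorem exists_arc {L : Type} [Field L] [Algebra κ L] [Algebra k L] [IsScalarTower k κ L]
    (η : σ → κ) (d : σ → L) : ∃ (ψ : MvPolynomial σ k →+* Polynomial L)
      (r : MvPolynomial σ k → Polynomial L), ∀ q, ψ q = Polynomial.C (algebraMap κ L (aeval η q)) +
        Polynomial.X * (Polynomial.C (∑ i, algebraMap κ L (grd η q i) * d i) +
          Polynomial.X * r q) := by
  let b : σ → Polynomial L := fun i => Polynomial.C (algebraMap κ L (η i))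
  let δ : σ → Polynomial L := fun i => Polynomial.X * Polynomial.C (d i)
  have hb : ∀ q : MvPolynomial σ k, aeval b q = Polynomial.C (algebraMap κ L (aeval η q)) :=
    fun q => (comp_aeval_apply η
      (((Polynomial.CAlgHom : L →ₐ[L] Polynomial L).restrictScalars k).comp
      (IsScalarTower.toAlgHom k κ L)) q).symm
  have h1 : ∀ q : MvPolynomial σ k, ∃ r : Polynomial L, aeval (b + δ) q =
      Polynomial.C (algebraMap κ L (aeval η q)) + Polynomial.X *
        (Polynomial.C (∑ i, algebraMap κ L (grd η q i) * d i) + Polynomial.X * r) := fun q => by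
    have h2 := Brg.Jac.taylor (Ideal.span {Polynomial.X}) b δ
      (fun i => Ideal.mul_mem_right _ _ (Ideal.subset_span rfl)) q
    rw [Ideal.span_singleton_pow, Ideal.mem_span_singleton] at h2
    obtain ⟨r, hr⟩ := h2
    refine ⟨r, ?_⟩
    simp only [hb] at hr
    rw [map_sum, mul_add, Finset.mul_sum]
    have h3 : ∀ i, Polynomial.X * Polynomial.C (algebraMap κ L (grd η q i) * d i) =
        Polynomial.C (algebraMap κ L (aeval η (pderiv i q))) * δ i := fun i => by
      simp only [δ, grd, map_mul]; ring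
    simp only [h3]
    linear_combination hr
  choose r hr using h1
  exact ⟨(aeval (b + δ) : MvPolynomial σ k →ₐ[k] Polynomial L), r, hr⟩

/-- an arc with a generic normal vector -/
theorem exists_arc' (hs : ∀ a, aeval η (s a) = 0)
    (hli : LinearIndependent κ fun a => grd η (s a)) :
    ∃ (L : Type) (_ : Field L) (ψ : MvPolynomial σ k →+* Polynomial L) (c : ι → Polynomial L),
      (∀ x, x ∈ idl k η ↔ (ψ x).coeff 0 = 0) ∧ (∀ a, ψ (s a) = Polynomial.X * c a) ∧
      (∀ a, (c a).coeff 0 ≠ 0) ∧ ∀ G : MvPolynomial ι (MvPolynomial σ k),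
        eval₂ (Polynomial.constantCoeff.comp ψ) (fun a => (c a).coeff 0) G = 0 →
          ∀ m, coeff m G ∈ idl k η := by
  classical
  obtain ⟨w, hw⟩ := exists_dual hli
  obtain ⟨L, _, _, _, _, u, hu⟩ : ∃ (L : Type) (_ : Field L) (_ : Algebra κ L) (_ : Algebra k L)
      (_ : IsScalarTower k κ L) (u : ι → L), AlgebraicIndependent κ u :=
    ⟨FractionRing (MvPolynomial ι κ), inferInstance, inferInstance, inferInstance, inferInstance,
      fun a => algebraMap (MvPolynomial ι κ) _ (X a),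
      (MvPolynomial.algebraicIndependent_X ι κ).map'
        (f := IsScalarTower.toAlgHom κ (MvPolynomial ι κ) _) (IsFractionRing.injective _ _)⟩
  obtain ⟨ψ, r, hr⟩ := exists_arc (k := k) η fun i => ∑ a, u a * algebraMap κ L (w a i)
  have h0 : ∀ q, (ψ q).coeff 0 = algebraMap κ L (aeval η q) := fun q => by
    rw [hr]; simp
  have h4 : ∀ a, ∑ i, algebraMap κ L (grd η (s a) i) * ∑ a, u a * algebraMap κ L (w a i) = u a :=
    fun a => by
    simp only [Finset.mul_sum]
    rw [Finset.sum_comm]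
    have h5 : ∀ a', ∑ i, algebraMap κ L (grd η (s a) i) * (u a' * algebraMap κ L (w a' i)) =
        if a = a' then u a' else 0 := fun a' => by
      have h6 := congrArg (fun z => u a' * algebraMap κ L z) (hw a a')
      simp only [map_sum, map_mul, Finset.mul_sum] at h6
      rw [show (if a = a' then u a' else 0) = u a' * algebraMap κ L (if a = a' then 1 else 0) by
        split_ifs <;> simp, ← h6]
      exact Finset.sum_congr rfl fun i _ => by ring
    simp [h5]
  refine ⟨L, inferInstance, ψ, fun a => Polynomial.C (u a) + Polynomial.X * r (s a), fun x => ?_,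
    fun a => by rw [hr, hs, map_zero, map_zero, zero_add, h4],
    fun a => by simpa using hu.ne_zero a, fun G h5 m => ?_⟩
  · rw [h0, map_eq_zero_iff _ (algebraMap κ L).injective]
    rfl
  · have h6 : Polynomial.constantCoeff.comp ψ = (algebraMap κ L).comp (evH k η) := RingHom.ext h0
    have h7 : aeval u (map (evH k η) G) = 0 := by
      rw [aeval_def, eval₂_map, ← h6, ← h5]
      simp
    have h8 := congrArg (coeff m) (hu (h7.trans (map_zero _).symm))
    rwa [coeff_map, coeff_zero] at h8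

/-- existence of the order along a smooth generic point -/
theorem exists_TR (hy : AlgebraicIndependent k y)
    (hK : IntermediateField.adjoin k (Set.range y) = ⊤) (hs : ∀ a, aeval η (s a) = 0)
    (hli : LinearIndependent κ fun a => grd η (s a)) (hg : Gen (evH k y) (idl k η) s) (a₀ : ι) :
    ∃ v : Valuation K ℤᵐ⁰, TR v (evH k y) (idl k η) s (aeval y (s a₀)) := by
  obtain ⟨L, _, ψ, c, h1, h2, h3, h4⟩ := exists_arc' hs hli
  have hT := tr_poly ψ c h1 h2 fun _ G _ => h4 G
  have hi := hT.injective (φ' := evH k y) hy hg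
  obtain ⟨j, hj⟩ : ∃ j : K →+* RatFunc L,
      j.comp (evH k y) = (algebraMap _ (RatFunc L)).comp ψ := by
    let _ : Algebra (MvPolynomial σ k) K := (evH k y).toAlgebra
    have : FaithfulSMul (MvPolynomial σ k) K := (faithfulSMul_iff_algebraMap_injective _ _).2 hy
    have : IsFractionRing (MvPolynomial σ k) K := IsFractionRing.of_field _ _ fun z => by
      obtain ⟨a, c, -, h⟩ := frc_evH hK z
      exact ⟨a, c, h⟩
    exact ⟨IsFractionRing.lift hi, RingHom.ext fun x => IsFractionRing.lift_algebraMap hi x⟩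
  have h9 : j (aeval y (s a₀)) = algebraMap _ (RatFunc L) (ψ (s a₀)) :=
    RingHom.congr_fun hj (s a₀)
  refine ⟨_, TR.comap (w := (Polynomial.idealX L).valuation (RatFunc L)) j ?_⟩
  rw [hj]
  refine hT.of_val ?_
  rw [h9, h2, map_mul, map_mul, RatFunc.algebraMap_X, mul_eq_left₀ hT.pos.ne']
  refine (valuation_le_one _ _).antisymm (not_lt.1 fun h => h3 a₀ ?_)
  rwa [valuation_lt_one_iff_mem, Polynomial.idealX_span, Ideal.mem_span_singleton,
    Polynomial.X_dvd_iff] at h

end Crest.Agent.X262.Tr89
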